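import Vale.Agent.P123.General

open Vale.Agent.P123 Polynomial in
/-- Crouzeix's inequality with constant 2, and even the bound by `S` for the numerical radius of
`P(A)`, for every nonconstant polynomial `P` such that `|P| ≤ S` on `W(A)` and all sublevel sets
`{z : |P z| ≤ s}` with `s > S` are convex. -/
theorem Vale.Agent.Results.P123.ConvexLevels.result {H : Type*} [NormedAddCommGroup H]
    [InnerProductSpace ℂ H] [Nontrivial H] (A : H →L[ℂ] H) (P : ℂ[X]) (hP : 0 < P.natDegree)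
    (S : ℝ) (hW : ∀ z ∈ numRange A, ‖P.eval z‖ ≤ S)
    (hconv : ∀ s : ℝ, S < s → Convex ℝ {z : ℂ | ‖P.eval z‖ ≤ s}) :
    (∀ z ∈ numRange (aeval A P), ‖z‖ ≤ S) ∧ ‖aeval A P‖ ≤ 2 * S := by
  have hrad := general_numRange A P hP hW hconv
  refine ⟨hrad, ?_⟩
  -- the numerical range of `A` is nonempty
  obtain ⟨y, hy⟩ := exists_ne (0 : H)
  obtain ⟨a, ha, -⟩ := rayleigh A hy
  have hS0 : 0 ≤ S := (norm_nonneg _).trans (hW a ha)
  exact norm_le_two_mul _ hS0 hrad
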