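import Vale.Agent.P123.Rotation
import Vale.Agent.P123.Binomial
import Vale.Agent.P123.LargeLevel
import Vale.Agent.P123.Defs

open Polynomial

namespace Vale.Agent.Results.P123.HighLevels

open Vale.Agent.P123

universe u

/-- Tangency at every positive level for a polynomial of degree one. -/
lemma tangency_linear (P : ℂ[X]) (hP : P.natDegree = 1) (M : ℝ) (hM : 0 < M) (ξ a : ℂ)
    (hξ : ‖P.eval ξ‖ = M) (ha : ‖P.eval a‖ ≤ M) :
    0 ≤ (P.derivative.eval ξ * (ξ - a) / P.eval ξ).re := by
  have hform : P = C (P.coeff 1) * X + C (P.coeff 0) :=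
    eq_X_add_C_of_natDegree_le_one (by omega)
  have hτ0 : P.eval ξ ≠ 0 := by
    intro h
    rw [h, norm_zero] at hξ
    exact hM.ne hξ
  have h1 : P.derivative.eval ξ * (ξ - a) = P.eval ξ - P.eval a := by
    rw [hform]
    simp
    ring
  rw [h1, sub_div, div_self hτ0, Complex.sub_re, Complex.one_re]
  have h3 : ‖P.eval a / P.eval ξ‖ ≤ 1 := by
    rw [norm_div, hξ, div_le_one hM]
    exact ha
  have h4 := Complex.re_le_norm (P.eval a / P.eval ξ)
  linarith

/-- Crouzeix inequality with constant two, and the numerical radius bound `w(P(A)) ≤ M`, in the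
following situations. (I) The polygon lemma. (II) The numerical range of `A` lies inside every
tangent of the lemniscate `|P| = M`. (III) The level set `|P| ≤ M` is convex and contains the
numerical range. (IV) `P = a (z - e)^n + d` and `M ≥ n |d|` bounds `|P|` on the numerical range;
for `d = 0` this is the power inequality. (V) `P = a (z - e)^n + d` and the numerical range lies
in a closed convex set with `n`-fold rotation symmetry about `e`. (VI) For an arbitrary
nonconstant `P` there is `M0`, depending only on `P`, such that the conclusion holds for all `A`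
and all levels `M ≥ M0` bounding `|P|` on the numerical range of `A`. -/
theorem result :
    (∀ (H : Type u) [NormedAddCommGroup H] [InnerProductSpace ℂ H] (A : H →L[ℂ] H),
      -- (I) the polygon lemma
      (∀ (P : ℂ[X]) (τ β : ℂ), 0 < P.natDegree →
        (∀ ξ, P.eval ξ = τ → P.derivative.eval ξ ≠ 0) →
        (∀ ξ, P.eval ξ = τ → ∀ a ∈ numRange A, 0 ≤ (β * P.derivative.eval ξ * (ξ - a)).re) →
        ∀ y : H, 0 ≤ (β * (τ * (‖y‖ : ℂ) ^ 2 - inner ℂ y (aeval A P y))).re) ∧
      -- (II) numerical range inside all tangents of the lemniscate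
      (∀ (P : ℂ[X]) (M : ℝ), 0 < P.natDegree → 0 < M →
        (∀ ξ, ‖P.eval ξ‖ = M → ∀ a ∈ numRange A,
          0 ≤ (P.derivative.eval ξ * (ξ - a) / P.eval ξ).re) → Bound A P M) ∧
      -- (III) convex level sets
      (∀ (P : ℂ[X]) (M : ℝ), 0 < M → Convex ℝ {z : ℂ | ‖P.eval z‖ ≤ M} →
        (∀ a ∈ numRange A, ‖P.eval a‖ ≤ M) → Bound A P M) ∧
      -- (IV) binomials at a level at least `n` times the modulus of the critical value
      (∀ (n : ℕ) (a e d : ℂ) (M : ℝ), 0 < n → a ≠ 0 → 0 < M → (n : ℝ) * ‖d‖ ≤ M →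
        (∀ w ∈ numRange A, ‖(binom n a e d).eval w‖ ≤ M) → Bound A (binom n a e d) M) ∧
      -- (V) rotation symmetry
      (∀ (n : ℕ) (a e d : ℂ) (K : Set ℂ), 0 < n → IsClosed K → Convex ℝ K →
        (∀ η : ℂ, η ^ n = 1 → ∀ w ∈ K, e + η * (w - e) ∈ K) → numRange A ⊆ K →
        (∀ y : H, ‖y‖ = 1 → ∃ z ∈ K, inner ℂ y (aeval A (binom n a e d) y) = (binom n a e d).eval z) ∧
        (∀ M : ℝ, 0 ≤ M → (∀ z ∈ K, ‖(binom n a e d).eval z‖ ≤ M) →
          ‖aeval A (binom n a e d)‖ ≤ 2 * M))) ∧
    -- (VI) every nonconstant polynomial at all high levels, uniformly in the operator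
    (∀ P : ℂ[X], 0 < P.natDegree → ∃ M0 : ℝ, 0 < M0 ∧
      ∀ (H : Type u) [NormedAddCommGroup H] [InnerProductSpace ℂ H] (A : H →L[ℂ] H) (M : ℝ),
        M0 ≤ M → (∀ a ∈ numRange A, ‖P.eval a‖ ≤ M) → Bound A P M) := by
  refine ⟨?_, ?_⟩
  · intro H _ _ A
    have hmem : ∀ x : H, ‖x‖ = 1 → inner ℂ x (A x) ∈ numRange A := fun x hx => ⟨x, hx, rfl⟩
    refine ⟨?_, ?_, ?_, ?_, ?_⟩
    · intro P τ β hP hs hW y
      exact polygon A P hP τ β hs (fun ξ hξ x hx => hW ξ hξ _ (hmem x hx)) y
    · intro P M hP hM ht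
      have h := tangent_bound A P hP M hM (fun ξ hξ x hx => ht ξ hξ _ (hmem x hx))
      exact ⟨h, norm_le_two_mul _ M hM.le h⟩
    · intro P M hM hconv hW
      have h := convex_level_bound A P M hM hconv (fun x hx => hW _ (hmem x hx))
      exact ⟨h, norm_le_two_mul _ M hM.le h⟩
    · intro n a e d M hn ha hM hd hW
      have hdeg : 0 < (binom n a e d).natDegree := by
        unfold binom
        rw [natDegree_add_C, natDegree_C_mul ha, natDegree_pow, natDegree_X_sub_C]
        omega
      have h := tangent_bound A (binom n a e d) hdeg M hM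
        (fun ξ hξ x hx => tangency_binomial n hn a e d ha M hM hd ξ _ hξ (hW _ (hmem x hx)))
      exact ⟨h, norm_le_two_mul _ M hM.le h⟩
    · intro n a e d K hn hc hK hrot hW
      have h : ∀ y : H, ‖y‖ = 1 → ∃ z ∈ K,
          inner ℂ y (aeval A (binom n a e d) y) = (binom n a e d).eval z :=
        fun y hy => rotation_translated A n a e d K hn hc hK hrot
          (fun x hx => hW (hmem x hx)) y hy
      refine ⟨h, ?_⟩
      intro M hM hbd
      refine norm_le_two_mul _ M hM (bound_of_unit _ M ?_)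
      intro x hx
      obtain ⟨z, hz, hzeq⟩ := h x hx
      rw [hzeq]
      exact hbd z hz
  · intro P hP
    have key : ∃ M0 : ℝ, 0 < M0 ∧ ∀ M : ℝ, M0 ≤ M → ∀ ξ a : ℂ, ‖P.eval ξ‖ = M → ‖P.eval a‖ ≤ M →
        0 ≤ (P.derivative.eval ξ * (ξ - a) / P.eval ξ).re := by
      rcases Nat.lt_or_ge P.natDegree 2 with h1 | h2
      · refine ⟨1, one_pos, ?_⟩
        intro M hM ξ a hξ ha
        exact tangency_linear P (by omega) M (by linarith) ξ a hξ ha
      · exact tangency_large P h2
    obtain ⟨M0, hM0, hkey⟩ := key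
    refine ⟨M0, hM0, ?_⟩
    intro H _ _ A M hM hW
    have hMpos : 0 < M := by linarith
    have h := tangent_bound A P hP M hMpos
      (fun ξ hξ x hx => hkey M hM ξ _ hξ (hW _ ⟨x, hx, rfl⟩))
    exact ⟨h, norm_le_two_mul _ M hMpos.le h⟩

end Vale.Agent.Results.P123.HighLevels
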