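import Vale.Agent.P123.Rotation

open Polynomial

namespace Vale.Agent.Results.P123.LemniscateTangents

open Vale.Agent.P123

/-- Crouzeix inequality with constant two, and the numerical radius bound `w(P(A)) ≤ M`,
for all pairs `(P, A)` for which the numerical range of `A` lies inside every tangent of the
lemniscate `|P| = M`, in particular when the level set `|P| ≤ M` is convex; for quadratics
`a (z - e)^2 + d` with `M ≥ 2 |d|`; and for `a (z - e)^n + d` and numerical ranges inside a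
closed convex set with `n`-fold rotation symmetry about `e`. -/
theorem result {H : Type*} [NormedAddCommGroup H] [InnerProductSpace ℂ H] (A : H →L[ℂ] H) :
    -- (I) the polygon lemma
    (∀ (P : ℂ[X]) (τ β : ℂ), 0 < P.natDegree →
      (∀ ξ, P.eval ξ = τ → P.derivative.eval ξ ≠ 0) →
      (∀ ξ, P.eval ξ = τ → ∀ x : H, ‖x‖ = 1 →
        0 ≤ (β * P.derivative.eval ξ * (ξ - inner ℂ x (A x))).re) →
      ∀ y : H, 0 ≤ (β * (τ * (‖y‖ : ℂ) ^ 2 - inner ℂ y (aeval A P y))).re) ∧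
    -- (II) numerical range inside all tangents of the lemniscate
    (∀ (P : ℂ[X]) (M : ℝ), 0 < P.natDegree → 0 < M →
      (∀ ξ, ‖P.eval ξ‖ = M → ∀ x : H, ‖x‖ = 1 →
        0 ≤ (P.derivative.eval ξ * (ξ - inner ℂ x (A x)) / P.eval ξ).re) →
      (∀ y : H, ‖inner ℂ y (aeval A P y)‖ ≤ M * ‖y‖ ^ 2) ∧ ‖aeval A P‖ ≤ 2 * M) ∧
    -- (III) convex level sets
    (∀ (P : ℂ[X]) (M : ℝ), 0 < M → Convex ℝ {z : ℂ | ‖P.eval z‖ ≤ M} →
      (∀ x : H, ‖x‖ = 1 → ‖P.eval (inner ℂ x (A x))‖ ≤ M) →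
      (∀ y : H, ‖inner ℂ y (aeval A P y)‖ ≤ M * ‖y‖ ^ 2) ∧ ‖aeval A P‖ ≤ 2 * M) ∧
    -- (IV) quadratics at a level at least twice the modulus of the critical value
    (∀ (a e d : ℂ) (M : ℝ), a ≠ 0 → 0 < M → 2 * ‖d‖ ≤ M →
      (∀ x : H, ‖x‖ = 1 →
        ‖(C a * (X - C e) ^ 2 + C d : ℂ[X]).eval (inner ℂ x (A x))‖ ≤ M) →
      (∀ y : H, ‖inner ℂ y (aeval A (C a * (X - C e) ^ 2 + C d) y)‖ ≤ M * ‖y‖ ^ 2) ∧
        ‖aeval A (C a * (X - C e) ^ 2 + C d : ℂ[X])‖ ≤ 2 * M) ∧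
    -- (V) rotation symmetry
    (∀ (n : ℕ) (a e d : ℂ) (K : Set ℂ), 0 < n → IsClosed K → Convex ℝ K →
      (∀ η : ℂ, η ^ n = 1 → ∀ w ∈ K, e + η * (w - e) ∈ K) →
      (∀ x : H, ‖x‖ = 1 → inner ℂ x (A x) ∈ K) →
      (∀ y : H, ‖y‖ = 1 → ∃ z ∈ K, inner ℂ y (aeval A (C a * (X - C e) ^ n + C d) y)
        = (C a * (X - C e) ^ n + C d : ℂ[X]).eval z) ∧
      (∀ M : ℝ, 0 ≤ M → (∀ z ∈ K, ‖(C a * (X - C e) ^ n + C d : ℂ[X]).eval z‖ ≤ M) →
        ‖aeval A (C a * (X - C e) ^ n + C d : ℂ[X])‖ ≤ 2 * M)) := by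
  refine ⟨?_, ?_, ?_, ?_, ?_⟩
  · intro P τ β hP hs hW y
    exact polygon A P hP τ β hs hW y
  · intro P M hP hM ht
    have h := tangent_bound A P hP M hM ht
    exact ⟨h, norm_le_two_mul _ M hM.le h⟩
  · intro P M hM hconv hW
    have h := convex_level_bound A P M hM hconv hW
    exact ⟨h, norm_le_two_mul _ M hM.le h⟩
  · intro a e d M ha hM hd hW
    have hdeg : 0 < (C a * (X - C e) ^ 2 + C d : ℂ[X]).natDegree := by
      rw [natDegree_add_C, natDegree_C_mul ha, natDegree_pow, natDegree_X_sub_C]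
      norm_num
    have h := tangent_bound A (C a * (X - C e) ^ 2 + C d) hdeg M hM
      (fun ξ hξ x hx => tangency_quadratic a e d ha M hM hd ξ _ hξ (hW x hx))
    exact ⟨h, norm_le_two_mul _ M hM.le h⟩
  · intro n a e d K hn hc hK hrot hW
    have h := fun y hy => rotation_translated A n a e d K hn hc hK hrot hW y hy
    refine ⟨h, ?_⟩
    intro M hM hbd
    refine norm_le_two_mul _ M hM (bound_of_unit _ M ?_)
    intro x hx
    obtain ⟨z, hz, hzeq⟩ := h x hx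
    rw [hzeq]
    exact hbd z hz

end Vale.Agent.Results.P123.LemniscateTangents
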