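import Vale.Agent.P123.Operator

open Vale.Agent.P123 in
/-- Crouzeix's inequality with constant 2 for quadratic polynomials `P(z) = α z² + β z + γ` in two
situations: (first part) `S ≥ sup over W(A) of |P|` and `S ≥ |β² - 4 α γ| / (2 |α|)`, which is the
range of levels at which the sublevel sets of `|P|` are convex; (second part) without any condition
on `S`, when `S` bounds `|P|` on the convex hull of `W(A)` and of its reflection about the critical
point of `P`. In both cases the numerical radius of `P(A)` is even at most `S`. -/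
theorem Vale.Agent.Results.P123.QuadraticLevel.result {H : Type*} [NormedAddCommGroup H]
    [InnerProductSpace ℂ H] [Nontrivial H] (A : H →L[ℂ] H) (α β γ : ℂ) (hα : α ≠ 0) (S : ℝ) :
    ((∀ z ∈ numRange A, ‖α * z ^ 2 + β * z + γ‖ ≤ S) → ‖β ^ 2 - 4 * α * γ‖ ≤ 2 * ‖α‖ * S →
      (∀ z ∈ numRange (quadOp α β γ A), ‖z‖ ≤ S) ∧ ‖quadOp α β γ A‖ ≤ 2 * S) ∧
    ((∀ z ∈ symHull α β A, ‖α * z ^ 2 + β * z + γ‖ ≤ S) →
      (∀ z ∈ numRange (quadOp α β γ A), ‖z‖ ≤ S) ∧ ‖quadOp α β γ A‖ ≤ 2 * S) := by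
  -- a point of the numerical range of `A` exists
  obtain ⟨y, hy⟩ := exists_ne (0 : H)
  have hyn : ‖y‖ ≠ 0 := norm_ne_zero_iff.mpr hy
  set ξ : H := ((‖y‖⁻¹ : ℝ) : ℂ) • y with hξ
  have hξ1 : ‖ξ‖ = 1 := by
    rw [hξ, norm_smul, Complex.norm_real, norm_inv, norm_norm]
    field_simp
  have hpt : inner ℂ ξ (A ξ) ∈ numRange A := ⟨ξ, hξ1, rfl⟩
  -- the second part implies the conclusions whenever the bound on the hull holds
  have hsecond : (∀ z ∈ symHull α β A, ‖α * z ^ 2 + β * z + γ‖ ≤ S) →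
      (∀ z ∈ numRange (quadOp α β γ A), ‖z‖ ≤ S) ∧ ‖quadOp α β γ A‖ ≤ 2 * S := by
    intro hS
    have hrad := numRadius_le_of_hull A β γ hα hS
    refine ⟨hrad, ?_⟩
    have hS0 : 0 ≤ S :=
      (norm_nonneg _).trans (hS _ (subset_convexHull ℝ _ (Set.mem_union_left _ hpt)))
    exact norm_le_two_mul _ hS0 hrad
  refine ⟨?_, hsecond⟩
  intro hW hdisc
  apply hsecond
  have hconv := quad_level_convex β γ hα hdisc
  have hsub : numRange A ∪ (fun z => -β / α - z) '' numRange A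
      ⊆ {z : ℂ | ‖α * z ^ 2 + β * z + γ‖ ≤ S} := by
    rintro z (hz | ⟨w, hw, rfl⟩)
    · exact hW z hz
    · show ‖α * (-β / α - w) ^ 2 + β * (-β / α - w) + γ‖ ≤ S
      rw [quad_reflect β γ w hα]
      exact hW w hw
  intro z hz
  exact convexHull_min hsub hconv hz
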